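import Vale.Agent.P284.H977.AE.Mol

/-!
# P284, theorem AE, row AE1b (helper977): assembly over the energy inequality
-/

open scoped Topology ContDiff
open Filter Set Metric MeasureTheory

noncomputable section

namespace Vale.Agent.P284.H977.AE

open Vale.Agent.P284.H894.AE

/-- the energy inequality (helper446) -/
def Energy : Prop := ∀ {r R : ℝ}, 0 < r → r < R → ∃ K : ℝ, 0 ≤ K ∧ ∀ (f : ℂ → ℝ) (M : ℝ),
  ContDiff ℝ 1 f → HasCompactSupport f → (∀ z, 0 ≤ f z ∧ f z ≤ M) →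
  (∃ δ > 0, ∀ z ∈ ball (0 : ℂ) R, ∀ ρ ∈ Ioo 0 δ, f z ≤ Real.circleAverage f z ρ) →
  ∫ z in ball (0 : ℂ) r, ‖fderiv ℝ f z‖ ^ 2 ≤ K * M ^ 2

theorem ae1b_of (hE : Energy) : AE1b := by
  intro h1a w hw r hr hr1
  obtain ⟨R, hrR, hR⟩ := exists_between hr1
  obtain ⟨B, f, hf, hfc, hf0, hfs, hft⟩ := moll h1a hw hrR hR
  obtain ⟨K, hK, h⟩ := hE hr hrR
  refine ⟨fun k z => f k z - B, K * (2 * B) ^ 2, fun k => ?_, fun z hz => ?_, fun k => ?_⟩
  · exact ((hf k).of_le (by exact_mod_cast le_top)).sub contDiff_const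
  · have := (hft z hz).sub_const B
    rwa [add_sub_cancel_right] at this
  · have h1 := h (f k) (2 * B) ((hf k).of_le (by exact_mod_cast le_top)) (hfc k) (hf0 k) (hfs k)
    refine le_trans (le_of_eq ?_) h1
    refine setIntegral_congr_fun measurableSet_ball fun z _ => ?_
    show ‖fderiv ℝ (fun z => f k z - B) z‖ ^ 2 = ‖fderiv ℝ (f k) z‖ ^ 2
    rw [fderiv_sub_const]

end Vale.Agent.P284.H977.AE
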