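import Vale.Agent.P284.H977.AE.AE1b
import Vale.Agent.P284.H446.AE.En

/-! # P284, theorem AE, row AE1b (helper977, helper446) -/

noncomputable section

namespace Vale.Agent.P284.H977.AE

open Vale.Agent.P284.H894.AE

/-- **AE1b** -/
theorem ae1b : AE1b := ae1b_of fun h1 h2 => Vale.Agent.P284.H446.AE.energy h1 h2

end Vale.Agent.P284.H977.AE
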