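import Vale.Agent.P284.H977.AE.AE1bF
import Vale.Agent.P284.H287.AE.AE1aF
import Vale.Agent.P284.H287.AE.AE1cF
import Vale.Agent.P284.H409.AE.AE1d
import Vale.Agent.P284.H446.AE.AE2
import Vale.Agent.P284.H446.AE.AE3

/-! # P284, theorem AE (helper977): closing the rows -/

noncomputable section

namespace Vale.Agent.P284.H977.AE

open Vale.Agent.P284.H894.AE

theorem ae1Concl : AE1Concl :=
  Vale.Agent.P284.H409.AE.ae1d Vale.Agent.P284.H287.AE.ae1a
    (ae1b Vale.Agent.P284.H287.AE.ae1a) Vale.Agent.P284.H287.AE.ae1c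

theorem ae2Concl : AE2Concl := Vale.Agent.P284.H446.AE.ae2 ae1Concl

/-- **Theorem AE** -/
theorem ae3Concl : AE3Concl := Vale.Agent.P284.H446.AE.ae3 ae2Concl

end Vale.Agent.P284.H977.AE
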