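import Vale.Agent.P284.H894.AE.Spec
import Mathlib.Analysis.Calculus.ContDiff.Convolution
import Mathlib.Analysis.SpecialFunctions.SmoothTransition
import Mathlib.Analysis.Complex.Isometry
import Mathlib.MeasureTheory.Measure.Haar.InnerProductSpace

/-!
# P284, theorem AE (helper977): mollification of a bounded subharmonic function in the unit disc
-/

open scoped Topology ContDiff
open Filter Set Metric MeasureTheory

noncomputable section

namespace Vale.Agent.P284.H977.AE

open Vale.Agent.P284.H894.AE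

/-- a radial kernel -/
theorem exists_kernel {ε : ℝ} (hε : 0 < ε) : ∃ k : ℂ → ℝ, ContDiff ℝ ∞ k ∧ (∀ t, 0 ≤ k t) ∧
    (∀ t, ε ≤ ‖t‖ → k t = 0) ∧ (∀ a : ℂ, ‖a‖ = 1 → ∀ t, k (a * t) = k t) ∧ ∫ t, k t = 1 ∧
    HasCompactSupport k := by
  set η : ℂ → ℝ := fun t => Real.smoothTransition (1 - ‖t‖ ^ 2 / ε ^ 2) with hη
  have h0 : ContDiff ℝ ∞ fun t : ℂ => 1 - ‖t‖ ^ 2 / ε ^ 2 :=
    contDiff_const.sub ((contDiff_norm_sq ℝ).div_const _)
  have h1 : ContDiff ℝ ∞ η := Real.smoothTransition.contDiff.comp h0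
  have hn : ∀ t, 0 ≤ η t := fun t => Real.smoothTransition.nonneg _
  have hz : ∀ t, ε ≤ ‖t‖ → η t = 0 := by
    intro t ht
    refine Real.smoothTransition.zero_of_nonpos ?_
    have : 1 ≤ ‖t‖ ^ 2 / ε ^ 2 := by
      rw [one_le_div (by positivity)]
      exact pow_le_pow_left₀ hε.le ht 2
    linarith
  have hc : HasCompactSupport η := by
    refine HasCompactSupport.intro (isCompact_closedBall 0 ε) fun t ht => hz t ?_
    rw [mem_closedBall, dist_zero_right, not_le] at ht
    exact ht.le
  have hp : 0 < ∫ t, η t := by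
    refine h1.continuous.integral_pos_of_hasCompactSupport_nonneg_nonzero hc hn (x := 0) ?_
    have : η 0 = 1 := by
      rw [hη]
      exact Real.smoothTransition.one_of_one_le (by simp)
    rw [this]
    exact one_ne_zero
  refine ⟨fun t => (∫ t, η t)⁻¹ * η t, contDiff_const.mul h1, fun t => mul_nonneg
    (inv_nonneg.2 hp.le) (hn t), fun t ht => by simp [hz t ht], fun a ha t => ?_, ?_,
    hc.mul_left⟩
  · simp only [hη, norm_mul, ha, one_mul]
  · rw [integral_const_mul, inv_mul_cancel₀ hp.ne']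

/-- `w + B` in the disc, `0` outside -/
def ext (w : ℂ → ℝ) (B : ℝ) : ℂ → ℝ := (ball (0 : ℂ) 1).indicator fun z => w z + B

section
variable {w : ℂ → ℝ} {B : ℝ}

theorem ext_of_mem {z : ℂ} (hz : z ∈ ball (0 : ℂ) 1) : ext w B z = w z + B :=
  indicator_of_mem hz _

theorem ext_nonneg (hB : ∀ z, |w z| ≤ B) (z : ℂ) : 0 ≤ ext w B z :=
  indicator_nonneg (fun y _ => by linarith [neg_abs_le (w y), hB y]) z

theorem ext_le (hB : ∀ z, |w z| ≤ B) (z : ℂ) : ext w B z ≤ 2 * B := by
  by_cases hz : z ∈ ball (0 : ℂ) 1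
  · rw [ext_of_mem hz]
    linarith [le_abs_self (w z), hB z]
  · have h0 : ext w B z = 0 := indicator_of_notMem hz _
    rw [h0]
    linarith [abs_nonneg (w 0), hB 0]

theorem measurable_ext (hw : Sub w) (hB : ∀ z, |w z| ≤ B) : Measurable (ext w B) := by
  refine measurable_of_Iio fun c => ?_
  have h1 : IsOpen {z | z ∈ ball (0 : ℂ) 1 ∧ w z + B < c} := by
    rw [isOpen_iff_mem_nhds]
    rintro z ⟨hz, hc⟩
    have := hw.usc z hz (c - B) (by linarith)
    filter_upwards [isOpen_ball.mem_nhds hz, this] with y hy h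
    exact ⟨hy, by linarith⟩
  rcases le_or_gt c 0 with hc | hc
  · have h2 : ext w B ⁻¹' Iio c = ∅ := by
      ext z
      simp only [mem_preimage, mem_Iio, mem_empty_iff_false, iff_false, not_lt]
      exact hc.trans (ext_nonneg hB z)
    rw [h2]
    exact MeasurableSet.empty
  · have h2 : ext w B ⁻¹' Iio c = {z | z ∈ ball (0 : ℂ) 1 ∧ w z + B < c} ∪ (ball (0 : ℂ) 1)ᶜ := by
      ext z
      by_cases hz : z ∈ ball (0 : ℂ) 1
      · simp only [mem_preimage, mem_Iio, ext_of_mem hz, mem_union, mem_setOf_eq, hz, true_and,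
          mem_compl_iff, not_true_eq_false, or_false]
      · have h0 : ext w B z = 0 := indicator_of_notMem hz _
        simp only [mem_preimage, mem_Iio, h0, mem_union, mem_setOf_eq, hz, false_and,
          mem_compl_iff, not_false_eq_true, or_true, iff_true]
        exact hc
    rw [h2]
    exact h1.measurableSet.union measurableSet_ball.compl

theorem ext_ii (hw : Sub w) (hB : ∀ z, |w z| ≤ B) {q : ℝ → ℂ} (hq : Continuous q) (a b : ℝ) :
    IntervalIntegrable (fun θ => ext w B (q θ)) volume a b := by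
  refine (intervalIntegrable_const (c := 2 * B)).mono_fun
    ((measurable_ext hw hB).comp hq.measurable).aestronglyMeasurable ?_
  refine Eventually.of_forall fun θ => ?_
  simp only [Real.norm_eq_abs]
  rw [abs_of_nonneg (ext_nonneg hB _)]
  exact (ext_le hB _).trans (le_abs_self _)

theorem sub_ext (h1a : AE1a) (hw : Sub w) (hB : ∀ z, |w z| ≤ B) {c : ℂ} {ρ : ℝ} (hρ : 0 < ρ)
    (h : closedBall c ρ ⊆ ball (0 : ℂ) 1) : ext w B c ≤ Real.circleAverage (ext w B) c ρ := by
  have h1 := h1a w hw c ρ hρ h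
  have h2 : Real.circleAverage (ext w B) c ρ = Real.circleAverage w c ρ + B := by
    have e : ∀ θ, w (circleMap c ρ θ) = ext w B (circleMap c ρ θ) - B := by
      intro θ
      have : circleMap c ρ θ ∈ ball (0 : ℂ) 1 :=
        h (sphere_subset_closedBall (circleMap_mem_sphere c hρ.le θ))
      rw [ext_of_mem this]
      ring
    rw [Real.circleAverage_def, Real.circleAverage_def]
    simp only [e]
    rw [intervalIntegral.integral_sub (ext_ii hw hB (continuous_circleMap c ρ) _ _)
      intervalIntegrable_const, intervalIntegral.integral_const]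
    simp only [smul_eq_mul, sub_zero]
    have hpi : (2 * Real.pi) ≠ 0 := by positivity
    field_simp
    ring
  rw [ext_of_mem (h (mem_closedBall_self hρ.le)), h2]
  linarith

/-- the mollified function -/
def mol (k g : ℂ → ℝ) (z : ℂ) : ℝ := ∫ t, k t * g (z - t)

theorem mol_eq (k g : ℂ → ℝ) :
    mol k g = MeasureTheory.convolution k g (ContinuousLinearMap.lsmul ℝ ℝ) volume := by
  funext z
  rfl

variable {k : ℂ → ℝ} {ε : ℝ}

theorem int_k (hk : ContDiff ℝ ∞ k) (hkc : HasCompactSupport k) : Integrable k :=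
  hk.continuous.integrable_of_hasCompactSupport hkc

theorem mol_smooth (hw : Sub w) (hB : ∀ z, |w z| ≤ B) (hk : ContDiff ℝ ∞ k)
    (hkc : HasCompactSupport k) : ContDiff ℝ ∞ (mol k (ext w B)) := by
  rw [mol_eq]
  refine hkc.contDiff_convolution_left _ hk ?_
  have h1 : Integrable (ext w B) := by
    have h2 : IntegrableOn (ext w B) (ball (0 : ℂ) 1) := by
      refine Measure.integrableOn_of_bounded (M := 2 * B) measure_ball_lt_top.ne
        (measurable_ext hw hB).aestronglyMeasurable ?_
      refine Eventually.of_forall fun z => ?_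
      rw [Real.norm_eq_abs, abs_of_nonneg (ext_nonneg hB _)]
      exact ext_le hB z
    refine (integrableOn_iff_integrable_of_support_subset ?_).1 h2
    exact support_indicator_subset
  exact h1.locallyIntegrable

theorem mol_supp (hkc : HasCompactSupport k) : HasCompactSupport (mol k (ext w B)) := by
  rw [mol_eq]
  refine hkc.convolution _ ?_
  refine HasCompactSupport.intro (isCompact_closedBall 0 1) fun z hz => ?_
  exact indicator_of_notMem (fun h => hz (ball_subset_closedBall h)) _

theorem int_kg (hw : Sub w) (hB : ∀ z, |w z| ≤ B) (hk : ContDiff ℝ ∞ k)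
    (hkc : HasCompactSupport k) (hk0 : ∀ t, 0 ≤ k t) {q : ℂ → ℂ} (hq : Continuous q) :
    Integrable fun t => k t * ext w B (q t) := by
  refine ((int_k hk hkc).mul_const (2 * B)).mono'
    (hk.continuous.measurable.mul ((measurable_ext hw hB).comp hq.measurable)).aestronglyMeasurable
    (Eventually.of_forall fun t => ?_)
  rw [Real.norm_eq_abs, abs_of_nonneg (mul_nonneg (hk0 t) (ext_nonneg hB _))]
  exact mul_le_mul_of_nonneg_left (ext_le hB _) (hk0 t)

theorem mol_nonneg (hB : ∀ z, |w z| ≤ B) (hk0 : ∀ t, 0 ≤ k t) (z : ℂ) :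
    0 ≤ mol k (ext w B) z :=
  integral_nonneg fun t => mul_nonneg (hk0 t) (ext_nonneg hB _)

/-- a bound of `g` on the ball of radius `ε` gives a bound of the mollified function -/
theorem mol_le (hw : Sub w) (hB : ∀ z, |w z| ≤ B) (hk : ContDiff ℝ ∞ k)
    (hkc : HasCompactSupport k) (hk0 : ∀ t, 0 ≤ k t) (hkz : ∀ t, ε ≤ ‖t‖ → k t = 0)
    (hk1 : ∫ t, k t = 1) {z : ℂ} {M : ℝ} (hM : ∀ t, ‖t‖ < ε → ext w B (z - t) ≤ M) :
    mol k (ext w B) z ≤ M := by
  have h1 : mol k (ext w B) z ≤ ∫ t, k t * M := by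
    refine integral_mono (int_kg hw hB hk hkc hk0 (by fun_prop)) ((int_k hk hkc).mul_const M)
      fun t => ?_
    show k t * ext w B (z - t) ≤ k t * M
    rcases lt_or_ge ‖t‖ ε with h | h
    · exact mul_le_mul_of_nonneg_left (hM t h) (hk0 t)
    · rw [hkz t h, zero_mul, zero_mul]
  rwa [integral_mul_const, hk1, one_mul] at h1

/-- the swap of the integrals -/
theorem swap (hw : Sub w) (hB : ∀ z, |w z| ≤ B) (hk : ContDiff ℝ ∞ k)
    (hkc : HasCompactSupport k) (hk0 : ∀ t, 0 ≤ k t) {q : ℝ × ℂ → ℂ} (hq : Continuous q) :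
    ∫ θ in (0 : ℝ)..(2 * Real.pi), ∫ t, k t * ext w B (q (θ, t)) =
      ∫ t, k t * ∫ θ in (0 : ℝ)..(2 * Real.pi), ext w B (q (θ, t)) := by
  have hpi : (0 : ℝ) ≤ 2 * Real.pi := by positivity
  rw [intervalIntegral.integral_of_le hpi, integral_integral_swap]
  · refine integral_congr_ae (Eventually.of_forall fun t => ?_)
    show ∫ θ in Ioc (0 : ℝ) (2 * Real.pi), k t * ext w B (q (θ, t)) =
      k t * ∫ θ in (0 : ℝ)..(2 * Real.pi), ext w B (q (θ, t))
    rw [integral_const_mul, intervalIntegral.integral_of_le hpi]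
  · have h1 : Integrable (fun x : ℝ × ℂ => (2 * B) * k x.2)
        ((volume.restrict (Ioc (0 : ℝ) (2 * Real.pi))).prod volume) :=
      (integrable_const (2 * B)).mul_prod (int_k hk hkc)
    refine h1.mono' ?_ (Eventually.of_forall fun x => ?_)
    · exact ((hk.continuous.measurable.comp measurable_snd).mul
        ((measurable_ext hw hB).comp hq.measurable)).aestronglyMeasurable
    · show ‖k x.2 * ext w B (q (x.1, x.2))‖ ≤ _
      rw [Real.norm_eq_abs, abs_of_nonneg (mul_nonneg (hk0 _) (ext_nonneg hB _)), mul_comm]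
      exact mul_le_mul_of_nonneg_right (ext_le hB _) (hk0 _)

theorem mol_sub (h1a : AE1a) (hw : Sub w) (hB : ∀ z, |w z| ≤ B) (hk : ContDiff ℝ ∞ k)
    (hkc : HasCompactSupport k) (hk0 : ∀ t, 0 ≤ k t) (hkz : ∀ t, ε ≤ ‖t‖ → k t = 0) {z : ℂ}
    {ρ : ℝ} (hρ : 0 < ρ) (h : ‖z‖ + ε + ρ < 1) :
    mol k (ext w B) z ≤ Real.circleAverage (mol k (ext w B)) z ρ := by
  have hq : Continuous fun x : ℝ × ℂ => circleMap z ρ x.1 - x.2 :=
    ((continuous_circleMap z ρ).comp continuous_fst).sub continuous_snd
  have h1 := swap hw hB hk hkc hk0 hq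
  have h2 : Real.circleAverage (mol k (ext w B)) z ρ =
      ∫ t, k t * Real.circleAverage (ext w B) (z - t) ρ := by
    rw [Real.circleAverage_def]
    show (2 * Real.pi)⁻¹ • ∫ θ in (0 : ℝ)..(2 * Real.pi), ∫ t, k t *
      ext w B (circleMap z ρ θ - t) = _
    rw [h1, smul_eq_mul, ← integral_const_mul]
    refine integral_congr_ae (Eventually.of_forall fun t => ?_)
    simp only []
    rw [Real.circleAverage_def, smul_eq_mul]
    have e : ∀ θ, circleMap z ρ θ - t = circleMap (z - t) ρ θ := by
      intro θ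
      simp only [circleMap]
      ring
    simp only [e]
    ring
  rw [h2]
  refine integral_mono_of_nonneg (Eventually.of_forall fun t => mul_nonneg (hk0 t)
    (ext_nonneg hB _)) ?_ (Eventually.of_forall fun t => ?_)
  · have h3 : Integrable (fun t : ℂ => k t * ((2 * Real.pi)⁻¹ *
        ∫ θ in (0 : ℝ)..(2 * Real.pi), ext w B (circleMap z ρ θ - t))) := by
      have h4 : Integrable (fun x : ℂ × ℝ => k x.1 * ext w B (circleMap z ρ x.2 - x.1))
          (volume.prod (volume.restrict (Ioc (0 : ℝ) (2 * Real.pi)))) := by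
        have h1 : Integrable (fun x : ℂ × ℝ => k x.1 * (2 * B))
            (volume.prod (volume.restrict (Ioc (0 : ℝ) (2 * Real.pi)))) :=
          (int_k hk hkc).mul_prod (integrable_const (2 * B))
        refine h1.mono' ?_ (Eventually.of_forall fun x => ?_)
        · refine ((hk.continuous.measurable.comp measurable_fst).mul
            ((measurable_ext hw hB).comp ?_)).aestronglyMeasurable
          exact (((continuous_circleMap z ρ).comp continuous_snd).sub continuous_fst).measurable
        · rw [Real.norm_eq_abs, abs_of_nonneg (mul_nonneg (hk0 _) (ext_nonneg hB _))]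
          exact mul_le_mul_of_nonneg_left (ext_le hB _) (hk0 _)
      have h5 := h4.integral_prod_left.const_mul (2 * Real.pi)⁻¹
      refine h5.congr (Eventually.of_forall fun t => ?_)
      simp only []
      rw [integral_const_mul, intervalIntegral.integral_of_le (by positivity)]
      ring
    refine h3.congr (Eventually.of_forall fun t => ?_)
    simp only []
    rw [Real.circleAverage_def, smul_eq_mul]
    have e : ∀ θ, circleMap z ρ θ - t = circleMap (z - t) ρ θ := by
      intro θ
      simp only [circleMap]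
      ring
    simp only [e]
  · show k t * ext w B (z - t) ≤ k t * Real.circleAverage (ext w B) (z - t) ρ
    rcases lt_or_ge ‖t‖ ε with ht | ht
    · refine mul_le_mul_of_nonneg_left (sub_ext h1a hw hB hρ fun y hy => ?_) (hk0 t)
      rw [mem_closedBall, dist_eq_norm] at hy
      rw [mem_ball, dist_zero_right]
      calc ‖y‖ = ‖(y - (z - t)) + z - t‖ := by congr 1; ring
        _ ≤ ‖(y - (z - t)) + z‖ + ‖t‖ := norm_sub_le _ _
        _ ≤ ‖y - (z - t)‖ + ‖z‖ + ‖t‖ := by gcongr; exact norm_add_le _ _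
        _ < 1 := by linarith
    · rw [hkz t ht, zero_mul, zero_mul]

/-- the integral over the rotations -/
theorem rot_int (g : ℂ → ℝ) (z t : ℂ) :
    ∫ θ in (0 : ℝ)..(2 * Real.pi), g (z - Complex.exp (θ * Complex.I) * t) =
      ∫ θ in (0 : ℝ)..(2 * Real.pi), g (circleMap z ‖t‖ θ) := by
  set β : ℝ := (-t).arg with hβ
  have h1 : ∀ θ : ℝ, z - Complex.exp (θ * Complex.I) * t = circleMap z ‖t‖ (θ + β) := by
    intro θ
    have h2 : -t = ‖t‖ * Complex.exp (β * Complex.I) := by
      have := Complex.norm_mul_exp_arg_mul_I (-t)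
      rw [norm_neg] at this
      rw [hβ, this]
    rw [circleMap]
    push_cast
    rw [add_mul, Complex.exp_add]
    calc z - Complex.exp (θ * Complex.I) * t = z + Complex.exp (θ * Complex.I) * (-t) := by ring
      _ = _ := by rw [h2]; ring
  simp only [h1]
  rw [intervalIntegral.integral_comp_add_right (fun θ => g (circleMap z ‖t‖ θ)) β, zero_add]
  have hper : Function.Periodic (fun θ => g (circleMap z ‖t‖ θ)) (2 * Real.pi) := by
    intro θ
    simp only [periodic_circleMap z ‖t‖ θ]
  have := hper.intervalIntegral_add_eq β 0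
  rw [zero_add] at this
  rw [add_comm (2 * Real.pi) β]
  exact this

theorem mol_ge (h1a : AE1a) (hw : Sub w) (hB : ∀ z, |w z| ≤ B) (hk : ContDiff ℝ ∞ k)
    (hkc : HasCompactSupport k) (hk0 : ∀ t, 0 ≤ k t) (hkz : ∀ t, ε ≤ ‖t‖ → k t = 0)
    (hkr : ∀ a : ℂ, ‖a‖ = 1 → ∀ t, k (a * t) = k t) (hk1 : ∫ t, k t = 1) {z : ℂ}
    (h : ‖z‖ + ε < 1) : ext w B z ≤ mol k (ext w B) z := by
  have h1 : ∀ θ : ℝ, mol k (ext w B) z =
      ∫ t, k t * ext w B (z - Complex.exp (θ * Complex.I) * t) := by
    intro θ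
    have h2 := (rotation (Circle.exp θ)).measurePreserving.integral_comp
      (rotation (Circle.exp θ)).toHomeomorph.measurableEmbedding
      (fun t => k t * ext w B (z - t))
    rw [mol, ← h2]
    refine integral_congr_ae (Eventually.of_forall fun t => ?_)
    simp only [rotation_apply, Circle.coe_exp]
    rw [hkr _ (by rw [Complex.norm_exp_ofReal_mul_I])]
  have hq : Continuous fun x : ℝ × ℂ => z - Complex.exp (x.1 * Complex.I) * x.2 := by fun_prop
  have h2 := swap hw hB hk hkc hk0 hq
  have hpi : (0 : ℝ) < 2 * Real.pi := by positivity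
  have h3 : ∫ θ in (0 : ℝ)..(2 * Real.pi), ∫ t, k t *
      ext w B (z - Complex.exp (θ * Complex.I) * t) = 2 * Real.pi * mol k (ext w B) z := by
    simp only [← h1]
    rw [intervalIntegral.integral_const, smul_eq_mul, sub_zero]
  have h4 : ∀ t, k t * (2 * Real.pi * ext w B z) ≤ k t * ∫ θ in (0 : ℝ)..(2 * Real.pi),
      ext w B (z - Complex.exp (θ * Complex.I) * t) := by
    intro t
    rcases lt_or_ge ‖t‖ ε with ht | ht
    · refine mul_le_mul_of_nonneg_left ?_ (hk0 t)
      rw [rot_int]
      rcases eq_or_ne t 0 with rfl | ht0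
      · simp only [norm_zero, circleMap_zero_radius, Function.const_apply]
        rw [intervalIntegral.integral_const, smul_eq_mul, sub_zero]
      · have h5 := sub_ext h1a hw hB (c := z) (norm_pos_iff.2 ht0) fun y hy => by
          rw [mem_closedBall, dist_eq_norm] at hy
          rw [mem_ball, dist_zero_right]
          calc ‖y‖ = ‖(y - z) + z‖ := by congr 1; ring
            _ ≤ ‖y - z‖ + ‖z‖ := norm_add_le _ _
            _ < 1 := by linarith
        rw [Real.circleAverage_def, smul_eq_mul, inv_mul_eq_div, le_div_iff₀ hpi] at h5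
        linarith
    · rw [hkz t ht, zero_mul, zero_mul]
  have h5 : ∫ t, k t * (2 * Real.pi * ext w B z) ≤ ∫ t, k t * ∫ θ in (0 : ℝ)..(2 * Real.pi),
      ext w B (z - Complex.exp (θ * Complex.I) * t) := by
    refine integral_mono_of_nonneg (Eventually.of_forall fun t => mul_nonneg (hk0 t)
      (mul_nonneg hpi.le (ext_nonneg hB _))) ?_ (Eventually.of_forall h4)
    have h4' : Integrable (fun x : ℂ × ℝ => k x.1 *
        ext w B (z - Complex.exp (x.2 * Complex.I) * x.1))
          (volume.prod (volume.restrict (Ioc (0 : ℝ) (2 * Real.pi)))) := by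
      have h1 : Integrable (fun x : ℂ × ℝ => k x.1 * (2 * B))
          (volume.prod (volume.restrict (Ioc (0 : ℝ) (2 * Real.pi)))) :=
        (int_k hk hkc).mul_prod (integrable_const (2 * B))
      refine h1.mono' ?_ (Eventually.of_forall fun x => ?_)
      · refine ((hk.continuous.measurable.comp measurable_fst).mul
          ((measurable_ext hw hB).comp ?_)).aestronglyMeasurable
        have : Continuous fun x : ℂ × ℝ => z - Complex.exp (x.2 * Complex.I) * x.1 := by fun_prop
        exact this.measurable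
      · rw [Real.norm_eq_abs, abs_of_nonneg (mul_nonneg (hk0 _) (ext_nonneg hB _))]
        exact mul_le_mul_of_nonneg_left (ext_le hB _) (hk0 _)
    refine h4'.integral_prod_left.congr (Eventually.of_forall fun t => ?_)
    simp only []
    rw [integral_const_mul, intervalIntegral.integral_of_le (by positivity)]
  rw [← h2, h3, integral_mul_const, hk1, one_mul] at h5
  exact le_of_mul_le_mul_left h5 hpi

end

/-- **mollification** -/
theorem moll (h1a : AE1a) {w : ℂ → ℝ} (hw : Sub w) {r R : ℝ} (hrR : r < R) (hR : R < 1) :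
    ∃ (B : ℝ) (f : ℕ → ℂ → ℝ), (∀ k, ContDiff ℝ ∞ (f k)) ∧ (∀ k, HasCompactSupport (f k)) ∧
      (∀ k z, 0 ≤ f k z ∧ f k z ≤ 2 * B) ∧
      (∀ k, ∃ δ > 0, ∀ z ∈ ball (0 : ℂ) R, ∀ ρ ∈ Ioo 0 δ,
        f k z ≤ Real.circleAverage (f k) z ρ) ∧
      ∀ z ∈ ball (0 : ℂ) r, Tendsto (fun k => f k z) atTop (𝓝 (w z + B)) := by
  obtain ⟨B, hB⟩ := hw.bdd
  set ε : ℕ → ℝ := fun j => (1 - R) / 4 / (j + 1) with hε
  have hε0 : ∀ j, 0 < ε j := fun j => by
    have : 0 < 1 - R := by linarith
    positivity
  have hε1 : ∀ j, ε j ≤ (1 - R) / 4 := fun j => by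
    refine div_le_self (by linarith) ?_
    have : (0 : ℝ) ≤ j := Nat.cast_nonneg j
    linarith
  have hεt : Tendsto ε atTop (𝓝 0) := by
    have := (tendsto_one_div_add_atTop_nhds_zero_nat (𝕜 := ℝ)).const_mul ((1 - R) / 4)
    rw [mul_zero] at this
    refine this.congr fun j => ?_
    rw [hε]
    ring
  choose k hk hk0 hkz hkr hk1 hkc using fun j => exists_kernel (hε0 j)
  refine ⟨B, fun j => mol (k j) (ext w B), fun j => mol_smooth hw hB (hk j) (hkc j),
    fun j => mol_supp (hkc j), fun j z => ⟨mol_nonneg hB (hk0 j) z,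
      mol_le hw hB (hk j) (hkc j) (hk0 j) (hkz j) (hk1 j) fun t _ => ext_le hB _⟩, fun j => ?_, ?_⟩
  · refine ⟨(1 - R) / 4, by linarith, fun z hz ρ hρ => ?_⟩
    rw [mem_ball, dist_zero_right] at hz
    refine mol_sub h1a hw hB (hk j) (hkc j) (hk0 j) (hkz j) hρ.1 ?_
    have := hε1 j
    have := hρ.2
    linarith
  · intro z hz
    have hz' : ‖z‖ < r := by simpa using hz
    have hzb : z ∈ ball (0 : ℂ) 1 := by
      rw [mem_ball, dist_zero_right]
      linarith
    rw [Metric.tendsto_atTop]
    intro η hη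
    have husc := hw.usc z hzb (w z + η / 2) (by linarith)
    obtain ⟨δ, hδ, hb⟩ := Metric.eventually_nhds_iff_ball.1
      (husc.and (isOpen_ball.mem_nhds hzb))
    obtain ⟨N, hN⟩ := (hεt.eventually (gt_mem_nhds hδ)).exists_forall_of_atTop
    refine ⟨N, fun j hj => ?_⟩
    have h1 : ext w B z ≤ mol (k j) (ext w B) z :=
      mol_ge h1a hw hB (hk j) (hkc j) (hk0 j) (hkz j) (hkr j) (hk1 j) (by
        have := hε1 j
        linarith)
    have h2 : mol (k j) (ext w B) z ≤ w z + η / 2 + B := by
      refine mol_le hw hB (hk j) (hkc j) (hk0 j) (hkz j) (hk1 j) fun t ht => ?_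
      have hm : z - t ∈ ball z δ := by
        rw [mem_ball, dist_eq_norm]
        have : z - t - z = -t := by ring
        rw [this, norm_neg]
        exact ht.trans (hN j hj)
      obtain ⟨h3, h4⟩ := hb _ hm
      rw [ext_of_mem h4]
      linarith
    rw [ext_of_mem hzb] at h1
    rw [Real.dist_eq, abs_lt]
    constructor <;> linarith

end Vale.Agent.P284.H977.AE
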